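import Mathlib
import Vale.Agent.Lib.P195.AR.Final

/-!
# P195: the Auslander-Reiten conjecture is false
-/

open CategoryTheory CategoryTheory.Abelian

namespace Vale.Agent.Results.P195.ARCounterexample

/-- Over every field `k` of characteristic zero there are a finite-dimensional `k`-algebra `R`
and a finitely generated left `R`-module `M` with `Ext^i_R(M, M) = 0` and `Ext^i_R(M, R) = 0` for
all `i ≥ 1`, such that `M` is not projective. -/
theorem result (k : Type) [Field k] [CharZero k] :
    ∃ (R : Type) (_ : Ring R) (_ : Algebra k R) (_ : Module.Finite k R)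
      (M : Type) (_ : AddCommGroup M) (_ : Module R M) (_ : Module.Finite R M),
      (∀ i : ℕ, 1 ≤ i → Subsingleton (Ext (ModuleCat.of R M) (ModuleCat.of R M) i)) ∧
      (∀ i : ℕ, 1 ≤ i → Subsingleton (Ext (ModuleCat.of R M) (ModuleCat.of R R) i)) ∧
      ¬ Module.Projective R M :=
  Vale.Agent.P195.AR.main_ex k

end Vale.Agent.Results.P195.ARCounterexample
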