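import Mathlib
import Vale.Agent.Lib.P195.AR.Final

/-!
# P195: the Auslander-Reiten conjecture is false (negation of the general statement)
-/

open CategoryTheory CategoryTheory.Abelian

namespace Vale.Agent.Results.P195.AuslanderReitenFalse

/-- `Ext^i(M, M × R) = 0` if `Ext^i(M, M) = 0` and `Ext^i(M, R) = 0` -/
theorem ext_prod {R : Type} [Ring R] (M N K : Type) [AddCommGroup M] [Module R M]
    [AddCommGroup N] [Module R N] [AddCommGroup K] [Module R K] (i : ℕ)
    (h1 : Subsingleton (Ext (ModuleCat.of R M) (ModuleCat.of R N) i))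
    (h2 : Subsingleton (Ext (ModuleCat.of R M) (ModuleCat.of R K) i)) :
    Subsingleton (Ext (ModuleCat.of R M) (ModuleCat.of R (N × K)) i) := by
  have key : ∀ x : Ext (ModuleCat.of R M) (ModuleCat.of R (N × K)) i, x = 0 := by
    intro x
    have e : 𝟙 (ModuleCat.of R (N × K)) =
        (ModuleCat.ofHom (LinearMap.fst R N K) : ModuleCat.of R (N × K) ⟶ ModuleCat.of R N) ≫
          ModuleCat.ofHom (LinearMap.inl R N K) +
        (ModuleCat.ofHom (LinearMap.snd R N K) : ModuleCat.of R (N × K) ⟶ ModuleCat.of R K) ≫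
          ModuleCat.ofHom (LinearMap.inr R N K) := by
      apply ModuleCat.hom_ext
      apply LinearMap.ext
      rintro ⟨a, b⟩
      exact Prod.ext (add_zero a).symm (zero_add b).symm
    have h3 : x = x.comp (Ext.mk₀ (𝟙 (ModuleCat.of R (N × K)))) (add_zero i) := by
      rw [Ext.comp_mk₀_id]
    have h4 : x.comp (Ext.mk₀ (ModuleCat.ofHom (LinearMap.fst R N K))) (add_zero i) = 0 :=
      h1.elim _ _
    have h5 : x.comp (Ext.mk₀ (ModuleCat.ofHom (LinearMap.snd R N K))) (add_zero i) = 0 :=
      h2.elim _ _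
    rw [h3, e, Ext.mk₀_add, Ext.comp_add, ← Ext.mk₀_comp_mk₀, ← Ext.mk₀_comp_mk₀,
      ← Ext.comp_assoc_of_second_deg_zero, ← Ext.comp_assoc_of_second_deg_zero, h4, h5,
      Ext.zero_comp, Ext.zero_comp, add_zero]
  exact ⟨fun x y => (key x).trans (key y).symm⟩

/-- It is not true that, over an Artin algebra `R` (a module-finite algebra over a commutative
Artinian ring `Λ`), every finitely generated left module `M` with `Ext^i_R(M, M ⊕ R) = 0` for all
`i ≥ 1` is projective. -/
theorem result :
    ¬ ∀ (Λ : Type) [CommRing Λ] [IsArtinianRing Λ] (R : Type) [Ring R] [Algebra Λ R]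
      [Module.Finite Λ R] (M : Type) [AddCommGroup M] [Module R M] [Module.Finite R M],
      (∀ i : ℕ, 1 ≤ i → Subsingleton (Ext (ModuleCat.of R M) (ModuleCat.of R (M × R)) i)) →
        Module.Projective R M := by
  intro H
  obtain ⟨A, _, _, _, M, _, _, _, h1, h2, h3⟩ := Vale.Agent.P195.AR.main_ex ℚ
  exact h3 (H ℚ A M fun i hi => ext_prod M M A i (h1 i hi) (h2 i hi))

end Vale.Agent.Results.P195.AuslanderReitenFalse
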