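import Vale.Agent.Lib.P195.AR.Final

/-!
# P195, elementary form

The Auslander-Reiten conjecture is false, stated with an explicit free resolution (no category
theory and no derived functors in the statement).
-/

namespace Vale.Agent.Results.P195.FreeResolutionForm

open CategoryTheory CategoryTheory.Abelian

/-- dimension shifting along `0 → K → P → Q → 0` with `P` projective -/
private theorem shift {R : Type} [Ring R] {K P Q X : Type} [AddCommGroup K] [Module R K]
    [AddCommGroup P] [Module R P] [AddCommGroup Q] [Module R Q] [AddCommGroup X] [Module R X]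
    (i : K →ₗ[R] P) (p : P →ₗ[R] Q) (hi : Function.Injective i) (hex : Function.Exact i p)
    (hp : Function.Surjective p) (hP : Module.Projective R P)
    (h : ∀ n : ℕ, 1 ≤ n → Subsingleton (Ext (ModuleCat.of R Q) (ModuleCat.of R X) n)) :
    (∀ n : ℕ, 1 ≤ n → Subsingleton (Ext (ModuleCat.of R K) (ModuleCat.of R X) n)) ∧
      ∀ g : K →ₗ[R] X, ∃ g' : P →ₗ[R] X, g' ∘ₗ i = g := by
  let S : ShortComplex (ModuleCat.{0} R) :=
    ShortComplex.mk (ModuleCat.ofHom i) (ModuleCat.ofHom p) (by
      ext x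
      exact hex.apply_apply_eq_zero x)
  have hS : S.ShortExact := by
    refine ShortComplex.ShortExact.mk' ?_ ?_ ?_
    · rw [ShortComplex.moduleCat_exact_iff]
      intro x hx
      exact (hex x).1 hx
    · exact (ModuleCat.mono_iff_injective _).2 hi
    · exact (ModuleCat.epi_iff_surjective _).2 hp
  have hPP : Projective S.X₂ := (IsProjective.iff_projective P).mp hP
  constructor
  · intro n hn
    obtain ⟨m, rfl⟩ : ∃ m, n = m + 1 := ⟨n - 1, by omega⟩
    refine subsingleton_of_forall_eq 0 (fun x => ?_)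
    have h1 := h (1 + (m + 1)) (by omega)
    obtain ⟨x₂, hx₂⟩ := Ext.contravariant_sequence_exact₁ hS (ModuleCat.of R X) x rfl
      (Subsingleton.elim _ _)
    rw [← hx₂, Ext.eq_zero_of_projective x₂, Ext.comp_zero]
  · intro g
    have h1 := h (1 + 0) (by omega)
    obtain ⟨x₂, hx₂⟩ := Ext.contravariant_sequence_exact₁ hS (ModuleCat.of R X)
      (Ext.mk₀ (ModuleCat.ofHom g)) rfl (Subsingleton.elim _ _)
    obtain ⟨y, rfl⟩ := (Ext.mk₀_bijective _ _).2 x₂
    rw [Ext.mk₀_comp_mk₀] at hx₂
    have h2 := (Ext.mk₀_bijective _ _).1 hx₂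
    refine ⟨y.hom, ?_⟩
    have := congrArg ModuleCat.Hom.hom h2
    exact this

/-- a free resolution of finite rank of a finitely generated module over a left noetherian ring -/
private theorem exists_res {R : Type} [Ring R] [IsNoetherianRing R] (M : Type) [AddCommGroup M]
    [Module R M] [Module.Finite R M] :
    ∃ (b : ℕ → ℕ) (e : (Fin (b 0) → R) →ₗ[R] M)
      (d : ∀ n : ℕ, (Fin (b (n + 1)) → R) →ₗ[R] (Fin (b n) → R)),
      Function.Surjective e ∧ Function.Exact (d 0) e ∧
        ∀ n : ℕ, Function.Exact (d (n + 1)) (d n) := by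
  have hcov : ∀ s : (Σ b : ℕ, Submodule R (Fin b → R)),
      ∃ (b' : ℕ) (φ : (Fin b' → R) →ₗ[R] (Fin s.1 → R)), LinearMap.range φ = s.2 := by
    rintro ⟨b, K⟩
    obtain ⟨b', φ, hφ⟩ := Module.Finite.exists_fin' R K
    refine ⟨b', K.subtype ∘ₗ φ, ?_⟩
    rw [LinearMap.range_comp, LinearMap.range_eq_top.2 hφ, Submodule.map_top,
      Submodule.range_subtype]
  choose b' φ hφ using hcov
  obtain ⟨b0, e, he⟩ := Module.Finite.exists_fin' R M
  let sq : ℕ → (Σ b : ℕ, Submodule R (Fin b → R)) := fun n =>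
    Nat.rec ⟨b0, LinearMap.ker e⟩ (fun _ s => ⟨b' s, LinearMap.ker (φ s)⟩) n
  refine ⟨fun n => (sq n).1, e, fun n => φ (sq n), he, ?_, fun n => ?_⟩
  · rw [LinearMap.exact_iff]
    exact (hφ (sq 0)).symm
  · rw [LinearMap.exact_iff]
    exact (hφ (sq (n + 1))).symm

/-- the complex `Hom(P, X)` is exact in positive degrees -/
private theorem hom_exact {R : Type} [Ring R] {M X : Type} [AddCommGroup M]
    [Module R M] [AddCommGroup X] [Module R X] (b : ℕ → ℕ) (e : (Fin (b 0) → R) →ₗ[R] M)
    (d : ∀ n : ℕ, (Fin (b (n + 1)) → R) →ₗ[R] (Fin (b n) → R))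
    (he : Function.Surjective e) (h0 : Function.Exact (d 0) e)
    (hd : ∀ n : ℕ, Function.Exact (d (n + 1)) (d n))
    (h : ∀ n : ℕ, 1 ≤ n → Subsingleton (Ext (ModuleCat.of R M) (ModuleCat.of R X) n)) (n : ℕ)
    (f : (Fin (b (n + 1)) → R) →ₗ[R] X) (hf : f ∘ₗ d (n + 1) = 0) :
    ∃ g : (Fin (b n) → R) →ₗ[R] X, f = g ∘ₗ d n := by
  have key : ∀ n : ℕ,
      (∀ i : ℕ, 1 ≤ i → Subsingleton
        (Ext (ModuleCat.of R (LinearMap.range (d n))) (ModuleCat.of R X) i)) ∧
      ∀ g : LinearMap.range (d n) →ₗ[R] X, ∃ g' : (Fin (b n) → R) →ₗ[R] X,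
        g' ∘ₗ (LinearMap.range (d n)).subtype = g := by
    intro n
    induction n with
    | zero =>
      refine shift (LinearMap.range (d 0)).subtype e Subtype.val_injective ?_ he inferInstance h
      rw [LinearMap.exact_iff, Submodule.range_subtype, ← LinearMap.exact_iff]
      exact h0
    | succ n ih =>
      refine shift (LinearMap.range (d (n + 1))).subtype (d n).rangeRestrict
        Subtype.val_injective ?_ (LinearMap.surjective_rangeRestrict _) inferInstance ih.1
      rw [LinearMap.exact_iff, Submodule.range_subtype, LinearMap.ker_rangeRestrict,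
        ← LinearMap.exact_iff]
      exact hd n
  have hker : LinearMap.ker (d n).rangeRestrict ≤ LinearMap.ker f := by
    rw [LinearMap.ker_rangeRestrict, (LinearMap.exact_iff.1 (hd n))]
    rintro _ ⟨x, rfl⟩
    exact LinearMap.congr_fun hf x
  let q := (d n).rangeRestrict.quotKerEquivOfSurjective (LinearMap.surjective_rangeRestrict _)
  obtain ⟨g', hg'⟩ := (key n).2 (((LinearMap.ker (d n).rangeRestrict).liftQ f hker) ∘ₗ
    q.symm.toLinearMap)
  refine ⟨g', LinearMap.ext (fun x => ?_)⟩
  have h1 := LinearMap.congr_fun hg' ((d n).rangeRestrict x)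
  have h2 : q.symm ((d n).rangeRestrict x) = Submodule.Quotient.mk x := by
    rw [LinearEquiv.symm_apply_eq]
    rfl
  rw [LinearMap.comp_apply, LinearMap.comp_apply, LinearEquiv.coe_coe, h2] at h1
  exact h1.symm

/-- Condition (AR) for the left `R`-module `M`, spelled out on a free resolution
`⋯ → R^(b 2) → R^(b 1) → R^(b 0) → M → 0` of finite rank: the complex `Hom_R(R^(b •), M ⊕ R)` is
exact in all positive degrees, that is, `Ext^i_R(M, M ⊕ R) = 0` for all `i ≥ 1`. -/
def ARCondition (R M : Type) [Ring R] [AddCommGroup M] [Module R M] : Prop :=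
  ∃ (b : ℕ → ℕ) (e : (Fin (b 0) → R) →ₗ[R] M)
    (d : ∀ n : ℕ, (Fin (b (n + 1)) → R) →ₗ[R] (Fin (b n) → R)),
    Function.Surjective e ∧ Function.Exact (d 0) e ∧ (∀ n : ℕ, Function.Exact (d (n + 1)) (d n)) ∧
    ∀ (n : ℕ) (f : (Fin (b (n + 1)) → R) →ₗ[R] (M × R)), f ∘ₗ d (n + 1) = 0 →
      ∃ g : (Fin (b n) → R) →ₗ[R] (M × R), f = g ∘ₗ d n

/-- **The Auslander-Reiten conjecture is false.** Over every field `k` of characteristic zero there
are a finite-dimensional `k`-algebra `R` and a finitely generated left `R`-module `M` which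
satisfies (AR) and is not projective. -/
theorem result (k : Type) [Field k] [CharZero k] :
    ∃ (R : Type) (_ : Ring R) (_ : Algebra k R) (M : Type) (_ : AddCommGroup M) (_ : Module R M),
      Module.Finite k R ∧ Module.Finite R M ∧ ARCondition R M ∧ ¬ Module.Projective R M := by
  obtain ⟨R, _, _, _, M, _, _, _, h1, h2, h3⟩ := Vale.Agent.P195.AR.main_ex k
  have : IsNoetherian k R := inferInstance
  have : IsNoetherianRing R := isNoetherian_of_tower k this
  obtain ⟨b, e, d, he, h0, hd⟩ := exists_res (R := R) M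
  refine ⟨R, inferInstance, inferInstance, M, inferInstance, inferInstance, inferInstance,
    inferInstance, ⟨b, e, d, he, h0, hd, fun n f hf => ?_⟩, h3⟩
  obtain ⟨g1, hg1⟩ := hom_exact b e d he h0 hd h1 n (LinearMap.fst R M R ∘ₗ f) (by
    rw [LinearMap.comp_assoc, hf, LinearMap.comp_zero])
  obtain ⟨g2, hg2⟩ := hom_exact b e d he h0 hd h2 n (LinearMap.snd R M R ∘ₗ f) (by
    rw [LinearMap.comp_assoc, hf, LinearMap.comp_zero])
  refine ⟨g1.prod g2, LinearMap.ext (fun x => ?_)⟩
  exact Prod.ext (LinearMap.congr_fun hg1 x) (LinearMap.congr_fun hg2 x)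

end Vale.Agent.Results.P195.FreeResolutionForm
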