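import Mathlib
import Vale.Agent.Lib.P195.Defs
import Vale.Agent.Lib.P195.Main
import Vale.Agent.Lib.P195.SyzygyTools

/-!
# P195: the Auslander-Reiten conjecture for Igusa-Todorov algebras
-/

universe u v

open CategoryTheory CategoryTheory.Abelian

namespace Vale.Agent.Results.P195.IgusaTodorov

open Vale.Agent.P195

/-- `R` is an Igusa-Todorov algebra: there are `n` and a finite family `V` of finitely generated
`R`-modules such that every finitely generated module `N` has an `n`-th syzygy `X` which admits a
short exact sequence `0 → B → A → X → 0` where `A` and `B` are finite direct sums of copies of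
members of `V`. -/
def IsIgusaTodorov (R : Type u) [Ring R] : Prop :=
  ∃ (n r : ℕ) (V : Fin r → ModuleCat.{u} R), (∀ i, Module.Finite R (V i)) ∧
    ∀ N : ModuleCat.{u} R, Module.Finite R N →
      ∃ (X B A : ModuleCat.{u} R) (f : B →ₗ[R] A) (g : A →ₗ[R] X),
        IsSyzygy N n X ∧ IsFiniteSumOf V B ∧ IsFiniteSumOf V A ∧
        Function.Injective f ∧ Function.Exact f g ∧ Function.Surjective g

/-- Let `R` be an Artin algebra which is an Igusa-Todorov algebra.  If `M` is a finitely
generated left `R`-module with `Ext^i_R(M, M) = 0` and `Ext^i_R(M, R) = 0` for all `i ≥ 1`,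
then `M` is projective. -/
theorem result {k : Type v} [CommRing k] [IsArtinianRing k]
    {R : Type u} [Ring R] [Algebra k R] [Module.Finite k R]
    (hR : IsIgusaTodorov R)
    (M : Type u) [AddCommGroup M] [Module R M] [Module.Finite R M]
    (hMM : ∀ i : ℕ, 1 ≤ i → Subsingleton (Ext (ModuleCat.of R M) (ModuleCat.of R M) i))
    (hMR : ∀ i : ℕ, 1 ≤ i → Subsingleton (Ext (ModuleCat.of R M) (ModuleCat.of R R) i)) :
    Module.Projective R M := by
  have hNoe : IsNoetherianRing R := IsNoetherianRing.of_finite k R
  have hM : Module.Finite R (ModuleCat.of R M) := ‹Module.Finite R M›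
  obtain ⟨n, r, V, hV, h⟩ := hR
  refine projective_of_twoTerm k V hV (ModuleCat.of R M)
    (fun i hi x => (hMM i hi).elim x 0) (fun i hi x => (hMR i hi).elim x 0) ?_
  intro N
  obtain ⟨Y, hYf, hY⟩ := exists_syzygy (ModuleCat.of R M) N
  obtain ⟨X, B, A, f, g, hX, hB, hA, hf, hfg, hg⟩ := h Y hYf
  exact ⟨N + n, Nat.le_add_right N n, X, hY.trans n X hX, B, A, f, g, hB, hA, hf, hfg, hg⟩

end Vale.Agent.Results.P195.IgusaTodorov
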