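import Mathlib
import Vale.Agent.Lib.P195.RepFinite
import Vale.Agent.Lib.P195.Semisimple

/-!
# P195: the Auslander-Reiten conjecture for Artin algebras with radical cube zero
-/

universe u v

open CategoryTheory CategoryTheory.Abelian

namespace Vale.Agent.Results.P195.RadCubeZero

/-- Let `R` be an Artin algebra (a module-finite algebra over a commutative Artinian ring `k`)
with `rad(R)^3 = 0`.  If `M` is a finitely generated left `R`-module with
`Ext^i_R(M, M) = 0` and `Ext^i_R(M, R) = 0` for all `i ≥ 1`, then `M` is projective. -/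
theorem result {k : Type v} [CommRing k] [IsArtinianRing k]
    {R : Type u} [Ring R] [Algebra k R] [Module.Finite k R]
    (hR : Ring.jacobson R ^ 3 = ⊥)
    (M : Type u) [AddCommGroup M] [Module R M] [Module.Finite R M]
    (hMM : ∀ i : ℕ, 1 ≤ i → Subsingleton (Ext (ModuleCat.of R M) (ModuleCat.of R M) i))
    (hMR : ∀ i : ℕ, 1 ≤ i → Subsingleton (Ext (ModuleCat.of R M) (ModuleCat.of R R) i)) :
    Module.Projective R M := by
  have hArt : IsArtinianRing R := IsArtinianRing.of_finite k R
  have hJ : Vale.Agent.P195.RepFin (R ⧸ Ring.jacobson R) :=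
    Vale.Agent.P195.repFin_of_isSemisimpleRing (R ⧸ Ring.jacobson R)
  have hM : Module.Finite R (ModuleCat.of R M) := ‹Module.Finite R M›
  refine Vale.Agent.P195.projective_of_ideals k (Ring.jacobson R) (Ring.jacobson R) ?_ hJ hJ
    (ModuleCat.of R M) (fun i hi x => (hMM i hi).elim x 0) (fun i hi x => (hMR i hi).elim x 0)
  intro a ha b hb c hc
  have h : a * b * c ∈ Ring.jacobson R ^ 3 := by
    have h3 : Ring.jacobson R ^ 3 = Ring.jacobson R * Ring.jacobson R * Ring.jacobson R := by
      rw [Submodule.pow_succ, Submodule.pow_succ, Submodule.pow_one]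
    rw [h3]
    exact Ideal.mul_mem_mul (Ideal.mul_mem_mul ha hb) hc
  rw [hR] at h
  exact h

end Vale.Agent.Results.P195.RadCubeZero
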