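import Mathlib
import Vale.Agent.Lib.P195.Range

/-!
# P195: the Auslander-Reiten conjecture for Artin algebras with radical cube zero,
# with vanishing of Ext only in an explicit finite range
-/

universe u v

open CategoryTheory CategoryTheory.Abelian

namespace Vale.Agent.Results.P195.RadCubeZeroRange

/-- Let `R` be an Artin algebra (a module-finite algebra over a commutative Artinian ring `k`)
with `rad(R)^3 = 0`, and let `S 1, ..., S n` be a list of simple modules containing
every simple `R`-module up to isomorphism (so `n` may be taken to be the number of simple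
modules).  If `M` is a finitely generated left `R`-module with
`Ext^i_R(M, M) = 0` for `1 ≤ i ≤ 2n + 1` and `Ext^i_R(M, R) = 0` for `1 ≤ i ≤ 2n + 2`, then `M`
is projective. -/
theorem result {k : Type v} [CommRing k] [IsArtinianRing k]
    {R : Type u} [Ring R] [Algebra k R] [Module.Finite k R]
    (hR : Ring.jacobson R ^ 3 = ⊥)
    (n : ℕ) (S : Fin n → ModuleCat.{u} R) (hSf : ∀ i, IsSimpleModule R (S i))
    (hS : ∀ (T : Type u) [AddCommGroup T] [Module R T], IsSimpleModule R T →
      ∃ i, Nonempty (T ≃ₗ[R] S i))
    (M : Type u) [AddCommGroup M] [Module R M] [Module.Finite R M]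
    (hMM : ∀ i : ℕ, 1 ≤ i → i ≤ 2 * n + 1 →
      Subsingleton (Ext (ModuleCat.of R M) (ModuleCat.of R M) i))
    (hMR : ∀ i : ℕ, 1 ≤ i → i ≤ 2 * n + 2 →
      Subsingleton (Ext (ModuleCat.of R M) (ModuleCat.of R R) i)) :
    Module.Projective R M := by
  have hArt : IsArtinianRing R := IsArtinianRing.of_finite k R
  have hM : Module.Finite R (ModuleCat.of R M) := ‹Module.Finite R M›
  refine Vale.Agent.P195.projective_of_radCubeZero_range k ?_ S ?_ hS
    (ModuleCat.of R M) (fun i hi hi' x => (hMM i hi hi').elim x 0)
    (fun i hi hi' x => (hMR i hi hi').elim x 0)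
  · intro a ha b hb c hc
    have h : a * b * c ∈ Ring.jacobson R ^ 3 := by
      have h3 : Ring.jacobson R ^ 3 = Ring.jacobson R * Ring.jacobson R * Ring.jacobson R := by
        rw [Submodule.pow_succ, Submodule.pow_succ, Submodule.pow_one]
      rw [h3]
      exact Ideal.mul_mem_mul (Ideal.mul_mem_mul ha hb) hc
    rw [hR] at h
    exact h
  · intro i
    have := hSf i
    infer_instance

end Vale.Agent.Results.P195.RadCubeZeroRange
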