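import Mathlib
import Vale.Agent.Lib.P195.Defs
import Vale.Agent.Lib.P195.RepFinite

/-!
# P195: the Auslander-Reiten conjecture for Artin algebras with two representation-finite
quotients `R/I`, `R/K` such that `I K rad(R) = 0`
-/

universe u v

open CategoryTheory CategoryTheory.Abelian

namespace Vale.Agent.Results.P195.TwoIdeals

open Vale.Agent.P195

/-- The ring `A` has finite representation type: there is a finite family `V` of finitely
generated `A`-modules such that every finitely generated `A`-module is isomorphic to a finite
direct sum of copies of members of `V`. -/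
def IsRepresentationFinite (A : Type u) [Ring A] : Prop :=
  ∃ (r : ℕ) (V : Fin r → ModuleCat.{u} A), (∀ i, Module.Finite A (V i)) ∧
    ∀ Y : ModuleCat.{u} A, Module.Finite A Y → IsFiniteSumOf V Y

/-- Let `R` be an Artin algebra with two-sided ideals `I`, `K` such that `I K rad(R) = 0` and
`R/I`, `R/K` have finite representation type.  If `M` is a finitely generated left `R`-module
with `Ext^i_R(M, M) = 0` and `Ext^i_R(M, R) = 0` for all `i ≥ 1`, then `M` is projective. -/
theorem result {k : Type v} [CommRing k] [IsArtinianRing k]
    {R : Type u} [Ring R] [Algebra k R] [Module.Finite k R]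
    (I K : Ideal R) [I.IsTwoSided] [K.IsTwoSided]
    (hIK : I * K * Ring.jacobson R = ⊥)
    (hI : IsRepresentationFinite (R ⧸ I)) (hK : IsRepresentationFinite (R ⧸ K))
    (M : Type u) [AddCommGroup M] [Module R M] [Module.Finite R M]
    (hMM : ∀ i : ℕ, 1 ≤ i → Subsingleton (Ext (ModuleCat.of R M) (ModuleCat.of R M) i))
    (hMR : ∀ i : ℕ, 1 ≤ i → Subsingleton (Ext (ModuleCat.of R M) (ModuleCat.of R R) i)) :
    Module.Projective R M := by
  have hM : Module.Finite R (ModuleCat.of R M) := ‹Module.Finite R M›
  refine projective_of_ideals k I K ?_ hI hK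
    (ModuleCat.of R M) (fun i hi x => (hMM i hi).elim x 0) (fun i hi x => (hMR i hi).elim x 0)
  intro a ha b hb c hc
  have h : a * b * c ∈ I * K * Ring.jacobson R :=
    Ideal.mul_mem_mul (Ideal.mul_mem_mul ha hb) hc
  rw [hIK] at h
  exact h

end Vale.Agent.Results.P195.TwoIdeals
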